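import Vale.Agent.P284.H10.CY.Mass
import Vale.Agent.P284.H731.K6C

/-!
# P284, theorem CY (helper10): the estimates of theorem K on the covering itself, for all groups
-/

open scoped Manifold ContDiff Topology Pointwise ComplexConjugate ComplexOrder
open Filter Set Metric MeasureTheory

noncomputable section

namespace Vale.Agent.P284.H10.CY

open Vale.Agent.P272.K Vale.Agent.P284.H248 Vale.Agent.P284.H894 Vale.Agent.P284.H894.G
  Vale.Agent.P284.H894.V Vale.Agent.P284.H894.W Vale.Agent.P284.H913.V Vale.Agent.P284.H409.A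
  Vale.Agent.P284.H409.K Vale.Agent.P284.H913.K

variable {n : ℕ} {Γ : Type} [Group Γ]

/-- the finitely supported perturbation -/
def pu {C : Coc n Γ} (φ : Γ → C.I → Cm n → ℝ) (γ : Γ) (a : C.I) : Cm n → ℝ :=
  (C.Ω a).indicator fun z => kk (φ γ a z)

theorem pu_ev {C : Coc n Γ} (φ : Γ → C.I → Cm n → ℝ) (γ : Γ) {a : C.I} {z : Cm n} (hz : z ∈ C.Ω a) :
    pu φ γ a =ᶠ[𝓝 z] fun y => kk (φ γ a y) := by
  filter_upwards [(Vale.Agent.P284.H639.V.isOpen_Ω C a).mem_nhds hz] with y hy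
  exact indicator_of_mem hy _

theorem pu_mem {C : Coc n Γ} (φ : Γ → C.I → Cm n → ℝ) (γ : Γ) {a : C.I} {z : Cm n} (hz : z ∈ C.Ω a) :
    pu φ γ a z = kk (φ γ a z) := indicator_of_mem hz _

theorem isTst_pu {C : Coc n Γ} {φ : Γ → C.I → Cm n → ℝ} (hφ : SmF C φ)
    (hfin : {γ : Γ | ∃ a, ∃ z ∈ C.V a, φ γ a z < -(1 / 2)}.Finite) : IsTst C (pu φ) where
  smooth γ a z hz :=
    ((kk_smooth.contDiffAt (x := φ γ a z)).comp z (hφ.smooth γ a z hz)).congr_of_eventuallyEq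
      (pu_ev φ γ hz)
  compat γ a b z hz := by
    rw [pu_mem φ γ (Vale.Agent.P284.H639.V.O_sub_Ω C hz),
      pu_mem φ _ (Vale.Agent.P284.H639.V.T_mem_Ω C hz), hφ.compat γ a b z hz]
  fin := by
    refine hfin.subset ?_
    rintro γ ⟨a, z, hz, hne⟩
    refine ⟨a, z, hz, ?_⟩
    by_contra hge
    apply hne
    rw [pu_mem φ γ (V_sub C a hz)]
    exact kk_zero (by linarith)
  out γ a z hz := indicator_of_notMem hz _

/-- the perturbed density is at least `min 1 (Dn φ)`, and more where `φ ≤ -1` -/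
theorem Dn_pu {C : Coc n Γ} (K : KM C) {φ : Γ → C.I → Cm n → ℝ} (hφ : SmF C φ) (γ : Γ) {a : C.I}
    {z : Cm n} (hz : z ∈ C.Ω a) (hp : (K.w a z + cHess (φ γ a) z).PosDef) :
    (Dn K φ γ a z) ^ (sl (φ γ a z)) ≤ Dn K (fun γ a z => pu φ γ a z + φ γ a z) γ a z := by
  have h1 := pt ((hφ.smooth γ a z hz).of_le (by norm_cast)) ((K.ku a).pos z hz) hp
  have h2 : Dn K (fun γ a z => pu φ γ a z + φ γ a z) γ a z =
      Dn K (fun γ a z => kk (φ γ a z) + φ γ a z) γ a z := by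
    refine Dn_congr K ?_
    filter_upwards [pu_ev φ γ hz] with y hy
    rw [hy]
  rw [h2]
  exact h1

/-- the bump function -/
theorem exists_bump (hV4 : V4Stmt) (C : Coc n Γ) (a₀ : C.I) (z₀ : Cm n) (ρ : ℝ) (hρ : 0 < ρ)
    (hball : ball z₀ (4 * ρ) ⊆ C.V a₀) : ∃ f : Γ → C.I → Cm n → ℝ, IsTst C f ∧
      (∀ γ a, ∀ z ∈ C.Ω a, 0 ≤ f γ a z ∧ f γ a z ≤ 1) ∧
      (∀ γ a z, f γ a z ≠ 0 → z ∈ C.O a a₀ ∧ C.T a a₀ z ∈ closedBall z₀ (3 * ρ)) ∧
      (∀ z ∈ ball z₀ (2 * ρ), f 1 a₀ z = 1) ∧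
      (∀ z ∈ C.Ω a₀, z ∉ ball z₀ (7 / 2 * ρ) → f 1 a₀ z = 0) ∧
      ∀ γ, γ ≠ 1 → ∀ z ∈ C.Ω a₀, f γ a₀ z = 0 := by
  have hVΩ : ∀ a, C.V a ⊆ C.Ω a := fun a => Vale.Agent.P284.H913.V.V_sub C a
  have h24 : ball z₀ (2 * ρ) ⊆ ball z₀ (4 * ρ) := ball_subset_ball (by linarith)
  let bf : ContDiffBump z₀ := ⟨2 * ρ, 3 * ρ, by positivity, by linarith⟩
  have hbt : tsupport (bf : Cm n → ℝ) = closedBall z₀ (3 * ρ) := bf.tsupport_eq
  have h3V : closedBall z₀ (3 * ρ) ⊆ C.V a₀ :=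
    (closedBall_subset_ball (by linarith)).trans hball
  have hTU : TU (C.V a₀) (bf : Cm n → ℝ) :=
    { smooth := bf.contDiff
      compact := by
        rw [HasCompactSupport, hbt]
        exact isCompact_closedBall _ _
      supp := by rw [hbt]; exact h3V }
  obtain ⟨f, hf1, hf2, hf3, hf4⟩ := hV4 n Γ C 1 a₀ (bf : Cm n → ℝ) hTU
  refine ⟨f, hf1, ?_, ?_, ?_, ?_, hf4⟩
  · intro γ a z hz
    by_cases h0 : f γ a z = 0
    · rw [h0]; exact ⟨le_rfl, zero_le_one⟩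
    · obtain ⟨h1, h2, h3⟩ := hf2 γ a z h0
      have h4 := hf1.compat γ a a₀ z h1
      rw [h2, hf3 _ (C.O_sub _ _ (C.T_mem a a₀ z h1))] at h4
      rw [h4]
      exact ⟨bf.nonneg, bf.le_one⟩
  · intro γ a z hne
    obtain ⟨h1, h2, h3⟩ := hf2 γ a z hne
    rw [hbt] at h3
    exact ⟨h1, h3⟩
  · intro z hz
    rw [hf3 z (hVΩ a₀ (hball (h24 hz)))]
    exact bf.one_of_mem_closedBall (ball_subset_closedBall hz)
  · intro z hz hn
    rw [hf3 z hz]
    by_contra hne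
    have h4 : z ∈ tsupport (bf : Cm n → ℝ) := subset_tsupport _ hne
    rw [hbt] at h4
    exact hn (closedBall_subset_ball (by linarith) h4)

/-- the density of the solution -/
theorem det_eq {C : Coc n Γ} {K : KM C} {F φ : Γ → C.I → Cm n → ℝ} (hφ : MAF C K F φ) (γ : Γ)
    {a : C.I} {z : Cm n} (hz : z ∈ C.Ω a) :
    (K.w a z + cHess (φ γ a) z).det.re = Real.exp (φ γ a z + F γ a z) * vol (K.w a) z := by
  have h1 := hφ.eq γ a z hz
  have h2 : 0 < (K.w a z + cHess (φ γ a) z).det.re :=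
    (Complex.lt_def.1 (hφ.pos γ a z hz).det_pos).1
  have h3 : 0 < (K.w a z).det.re := (Complex.lt_def.1 ((K.ku a).pos z hz).det_pos).1
  have h4 : Real.log (K.w a z + cHess (φ γ a) z).det.re =
      φ γ a z + F γ a z + Real.log (K.w a z).det.re := by linarith
  rw [← Real.exp_log h2, h4, Real.exp_add, Real.exp_log h3]
  rfl

theorem Dn_eq {C : Coc n Γ} {K : KM C} {F φ : Γ → C.I → Cm n → ℝ} (hφ : MAF C K F φ) (γ : Γ)
    {a : C.I} {z : Cm n} (hz : z ∈ C.Ω a) :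
    Dn K φ γ a z = Real.exp (φ γ a z + F γ a z) := by
  rw [Dn, det_eq hφ γ hz, mul_div_cancel_right₀ _ (vol_pos K hz).ne']

/-- positive part -/
def pp {C : Coc n Γ} (s : ℝ) (G : Γ → C.I → Cm n → ℝ) (γ : Γ) (a : C.I) (z : Cm n) : ℝ :=
  max (s * G γ a z) 0

theorem fam_pp {C : Coc n Γ} {G : Γ → C.I → Cm n → ℝ} (hG : Fam C G) (s : ℝ) : Fam C (pp s G) where
  cont γ a := (continuousOn_const.mul (hG.cont γ a)).sup continuousOn_const
  compat γ a b z hz := by simp only [pp]; rw [hG.compat γ a b z hz]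
  fin := by
    refine hG.fin.subset ?_
    rintro γ ⟨a, z, hz, hne⟩
    refine ⟨a, z, hz, fun h0 => hne ?_⟩
    simp [pp, h0]

theorem int_pp {C : Coc n Γ} (P : PU C) (K : KM C) {G : Γ → C.I → Cm n → ℝ} (hG : Fam C G)
    (h0 : V.Int P K G = 0) : V.Int P K (pp 1 G) = V.Int P K (pp (-1) G) := by
  have h1 := v3Stmt.lin C P K _ _ 1 (-1) (fam_pp hG 1) (fam_pp hG (-1))
  have h2 : V.Int P K (fun γ a z => 1 * pp 1 G γ a z + -1 * pp (-1) G γ a z) = V.Int P K G := by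
    refine Vale.Agent.P284.H639.V.Int_congr P K fun γ a z hz => ?_
    simp only [pp]
    rcases le_total 0 (G γ a z) with h | h
    · rw [max_eq_left (by linarith), max_eq_right (by linarith)]; ring
    · rw [max_eq_right (by linarith), max_eq_left (by linarith)]; ring
  rw [h2, h0] at h1
  linarith

/-- the mass of the negative part is carried by the support of `F` -/
theorem neg_le {C : Coc n Γ} (P : PU C) (K : KM C) (a₀ : C.I) (z₀ : Cm n) (ρ : ℝ) (hρ : 0 < ρ)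
    (hball : ball z₀ (4 * ρ) ⊆ C.V a₀) {f φ : Γ → C.I → Cm n → ℝ} {A M : ℝ}
    (hφ : MAF C K (fun γ a z => A * f γ a z) φ)
    (hneg : ∀ γ a, ∀ z ∈ C.Ω a, φ γ a z ≤ 0)
    (hfin : {γ : Γ | ∃ a, ∃ z ∈ C.V a, φ γ a z < -(1 / 2)}.Finite)
    (hf3 : ∀ γ a z, f γ a z ≠ 0 → z ∈ C.O a a₀ ∧ C.T a a₀ z ∈ closedBall z₀ (3 * ρ))
    (hf4 : ∀ z ∈ C.Ω a₀, z ∉ ball z₀ (7 / 2 * ρ) → f 1 a₀ z = 0)
    (hf5 : ∀ γ, γ ≠ 1 → ∀ z ∈ C.Ω a₀, f γ a₀ z = 0)
    (hM : ∫ z in ball z₀ (7 / 2 * ρ), (K.w a₀ z + cHess (φ 1 a₀) z).det.re ≤ M) :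
    V.Int P K (pp (-1) (DD' K (pu φ) φ)) ≤ M := by
  have hVΩ : ∀ a, C.V a ⊆ C.Ω a := fun a => Vale.Agent.P284.H913.V.V_sub C a
  have hu := isTst_pu hφ.toSmF hfin
  have hG := fam_DD K hu hφ.toSmF
  have hGm := fam_pp hG (-1)
  have h3V : closedBall z₀ (3 * ρ) ⊆ C.V a₀ :=
    (closedBall_subset_ball (by linarith)).trans hball
  have h7V : ball z₀ (7 / 2 * ρ) ⊆ C.V a₀ := (ball_subset_ball (by linarith)).trans hball
  -- where `f = 0` there is no negative part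
  have hz0 : ∀ γ a, ∀ z ∈ C.Ω a, f γ a z = 0 → pp (-1) (DD' K (pu φ) φ) γ a z = 0 := by
    intro γ a z hz h0
    have h1 := Dn_pu K hφ.toSmF γ hz (hφ.pos γ a z hz)
    have h2 := Dn_eq hφ γ hz
    rw [h0, mul_zero, add_zero] at h2
    have h3 : Dn K φ γ a z ≤ Dn K φ γ a z ^ sl (φ γ a z) := by
      rw [h2, ← Real.exp_mul]
      refine Real.exp_le_exp.2 ?_
      nlinarith [hneg γ a z hz, sl_le (φ γ a z)]
    refine max_eq_right ?_
    simp only [DD']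
    linarith
  rw [v3Stmt.piece C P K _ a₀ (closedBall z₀ (3 * ρ)) hGm (isCompact_closedBall _ _) h3V
    (fun γ a z hz hne => hf3 γ a z fun h0 => hne (hz0 γ a z hz h0)), tsum_eq_single (1 : Γ)]
  · have h2 : ∫ z in C.V a₀, pp (-1) (DD' K (pu φ) φ) 1 a₀ z * vol (K.w a₀) z =
        ∫ z in ball z₀ (7 / 2 * ρ), pp (-1) (DD' K (pu φ) φ) 1 a₀ z * vol (K.w a₀) z := by
      refine setIntegral_eq_of_subset_of_forall_sdiff_eq_zero measurableSet_ball h7V ?_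
      rintro z ⟨hz1, hz2⟩
      rw [hz0 1 a₀ z (hVΩ a₀ hz1) (hf4 z (hVΩ a₀ hz1) hz2), zero_mul]
    rw [h2]
    refine le_trans ?_ hM
    have hi4 : IntegrableOn (fun z => (K.w a₀ z + cHess (φ 1 a₀) z).det.re)
        (ball z₀ (7 / 2 * ρ)) := by
      have hc : ContinuousOn (fun z => Dn K φ 1 a₀ z * vol (K.w a₀) z) (C.Ω a₀) := by
        refine ContinuousOn.mul (fun z hz => ?_) (Vale.Agent.P284.H913.V.vol_cont K a₀)
        exact (Dn_smooth K hφ.smooth 1 hz).continuousAt.continuousWithinAt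
      have h1 : IntegrableOn (fun z => Dn K φ 1 a₀ z * vol (K.w a₀) z) (C.V a₀) :=
        Vale.Agent.P284.H913.V.intV hc
      refine (h1.mono_set h7V).congr_fun (fun z hz => ?_) measurableSet_ball
      show Dn K φ 1 a₀ z * vol (K.w a₀) z = _
      rw [Dn, div_mul_cancel₀ _ (vol_pos K (hVΩ a₀ (h7V hz))).ne']
    have hiD : IntegrableOn (fun z => pp (-1) (DD' K (pu φ) φ) 1 a₀ z * vol (K.w a₀) z)
        (ball z₀ (7 / 2 * ρ)) :=
      (Vale.Agent.P284.H913.V.intV ((hGm.cont 1 a₀).mul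
        (Vale.Agent.P284.H913.V.vol_cont K a₀))).mono_set h7V
    refine setIntegral_mono_on hiD hi4 measurableSet_ball fun z hz => ?_
    have hz' := hVΩ a₀ (h7V hz)
    have hv := vol_pos K hz'
    have h5 : (K.w a₀ z + cHess (φ 1 a₀) z).det.re = Dn K φ 1 a₀ z * vol (K.w a₀) z := by
      rw [Dn, div_mul_cancel₀ _ hv.ne']
    rw [h5]
    refine mul_le_mul_of_nonneg_right ?_ hv.le
    have h6 : 0 ≤ Dn K φ 1 a₀ z := by
      rw [Dn_eq hφ 1 hz']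
      exact (Real.exp_pos _).le
    have h7 := Dn_pu K hφ.toSmF 1 hz' (hφ.pos 1 a₀ z hz')
    have h8 : 0 ≤ Dn K φ 1 a₀ z ^ sl (φ 1 a₀ z) := Real.rpow_nonneg h6 _
    refine max_le ?_ h6
    simp only [DD']
    linarith
  · intro γ hγ
    refine setIntegral_eq_zero_of_forall_eq_zero fun z hz => ?_
    rw [hz0 γ a₀ z (hVΩ a₀ hz) (hf5 γ hγ z (hVΩ a₀ hz)), zero_mul]

/-- the number of the cells where `φ ≤ -1` -/
theorem count {C : Coc n Γ} (P : PU C) (K : KM C) (a₀ : C.I) (z₀ : Cm n) (ρ : ℝ) (hρ : 0 < ρ)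
    (hball : ball z₀ (4 * ρ) ⊆ C.V a₀) {f φ : Γ → C.I → Cm n → ℝ} {A M : ℝ}
    (hφ : MAF C K (fun γ a z => A * f γ a z) φ)
    (hfin : {γ : Γ | ∃ a, ∃ z ∈ C.V a, φ γ a z < -(1 / 2)}.Finite)
    (hf5 : ∀ γ, γ ≠ 1 → ∀ z ∈ C.Ω a₀, f γ a₀ z = 0)
    (hM : V.Int P K (pp 1 (DD' K (pu φ) φ)) ≤ M) :
    {γ : Γ | ∀ z ∈ ball z₀ ρ, φ γ a₀ z ≤ -1}.Finite ∧
    (Set.ncard {γ : Γ | ∀ z ∈ ball z₀ ρ, φ γ a₀ z ≤ -1} : ℝ) ≤
      1 + M / ((Real.exp (-1 / 4) - Real.exp (-1)) * K.lam * (volume (ball z₀ ρ)).toReal) := by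
  classical
  have hVΩ : ∀ a, C.V a ⊆ C.Ω a := fun a => Vale.Agent.P284.H913.V.V_sub C a
  have h1V : ball z₀ ρ ⊆ C.V a₀ := (ball_subset_ball (by linarith)).trans hball
  have hu := isTst_pu hφ.toSmF hfin
  have hG := fam_DD K hu hφ.toSmF
  have hGp := fam_pp hG 1
  set G : Γ → C.I → Cm n → ℝ := pp 1 (DD' K (pu φ) φ) with hGd
  have hG0 : ∀ γ a, ∀ z ∈ C.Ω a, 0 ≤ G γ a z := fun γ a z _ => le_max_right _ _
  set S₁ : Set Γ := {γ | ∀ z ∈ ball z₀ ρ, φ γ a₀ z ≤ -1} with hS₁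
  have hS₁f : S₁.Finite := by
    refine hfin.subset fun γ hγ => ⟨a₀, z₀, h1V (mem_ball_self hρ), ?_⟩
    have := hγ z₀ (mem_ball_self hρ)
    linarith
  refine ⟨hS₁f, ?_⟩
  set v₀ : ℝ := (volume (ball z₀ ρ)).toReal with hv₀
  have hv₀p : 0 < v₀ := ENNReal.toReal_pos (measure_ball_pos volume _ hρ).ne' measure_ball_lt_top.ne
  set c₀ : ℝ := Real.exp (-1 / 4) - Real.exp (-1) with hc₀
  have hc₀p : 0 < c₀ := sub_pos.2 (Real.exp_lt_exp.2 (by norm_num))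
  set κ : ℝ := c₀ * K.lam * v₀ with hκ
  have hκp : 0 < κ := mul_pos (mul_pos hc₀p K.lam_pos) hv₀p
  have hlow := v3Stmt.le C P K _ hGp hG0 a₀
  have hle := hlow.trans hM
  have hterm0 : ∀ γ : Γ, 0 ≤ ∫ z in C.V a₀, G γ a₀ z * vol (K.w a₀) z :=
    fun γ => setIntegral_nonneg measurableSet_ball fun z hz =>
      mul_nonneg (hG0 γ a₀ z (hVΩ a₀ hz)) (vol_pos K (hVΩ a₀ hz)).le
  have hiT : ∀ γ : Γ, IntegrableOn (fun z => G γ a₀ z * vol (K.w a₀) z) (C.V a₀) := fun γ =>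
    Vale.Agent.P284.H913.V.intV ((hGp.cont γ a₀).mul (Vale.Agent.P284.H913.V.vol_cont K a₀))
  have hterm : ∀ γ ∈ S₁, γ ≠ 1 → κ ≤ ∫ z in C.V a₀, G γ a₀ z * vol (K.w a₀) z := by
    intro γ hγ hγ1
    have h1 : ∫ z in ball z₀ ρ, c₀ * K.lam ≤ ∫ z in ball z₀ ρ, G γ a₀ z * vol (K.w a₀) z := by
      refine setIntegral_mono_on (integrableOn_const measure_ball_lt_top.ne)
        ((hiT γ).mono_set h1V) measurableSet_ball fun z hz => ?_
      have hz' := hVΩ a₀ (h1V hz)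
      have h3 := K.vol_low a₀ z hz'
      refine mul_le_mul ?_ h3 K.lam_pos.le (hG0 γ a₀ z hz')
      have h4 := Dn_pu K hφ.toSmF γ hz' (hφ.pos γ a₀ z hz')
      have h5 := Dn_eq hφ γ hz'
      simp only [hf5 γ hγ1 z hz', mul_zero, add_zero] at h5
      have h6 := hγ z hz
      have h7 : Real.exp (-1 / 4) ≤ Dn K φ γ a₀ z ^ sl (φ γ a₀ z) := by
        rw [h5, ← Real.exp_mul]
        refine Real.exp_le_exp.2 ?_
        have := sl_small h6
        linarith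
      have h8 : Dn K φ γ a₀ z ≤ Real.exp (-1) := by
        rw [h5]
        exact Real.exp_le_exp.2 h6
      refine le_trans ?_ (le_max_left _ _)
      simp only [DD', one_mul]
      linarith
    rw [setIntegral_const, measureReal_def, smul_eq_mul] at h1
    have h2 : ∫ z in ball z₀ ρ, G γ a₀ z * vol (K.w a₀) z ≤
        ∫ z in C.V a₀, G γ a₀ z * vol (K.w a₀) z := by
      refine setIntegral_mono_set (hiT γ) ?_ (LE.le.eventuallyLE h1V)
      refine (ae_restrict_iff' measurableSet_ball).2 (Eventually.of_forall fun z hz => ?_)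
      exact mul_nonneg (hG0 γ a₀ z (hVΩ a₀ hz)) (vol_pos K (hVΩ a₀ hz)).le
    have h3 : κ = v₀ * (c₀ * K.lam) := by rw [hκ]; ring
    rw [h3]
    exact h1.trans h2
  have hsum : Summable fun γ : Γ => ∫ z in C.V a₀, G γ a₀ z * vol (K.w a₀) z := by
    refine summable_of_hasFiniteSupport (hGp.fin.subset fun γ hγ => ?_)
    by_contra hn
    apply hγ
    refine setIntegral_eq_zero_of_forall_eq_zero fun z hz => ?_
    by_contra hne
    exact hn ⟨a₀, z, hz, fun h0 => hne (by rw [h0, zero_mul])⟩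
  have h5 : ((hS₁f.toFinset.erase 1).card : ℝ) * κ ≤
      ∑' γ : Γ, ∫ z in C.V a₀, G γ a₀ z * vol (K.w a₀) z := by
    calc ((hS₁f.toFinset.erase 1).card : ℝ) * κ = ∑ _γ ∈ hS₁f.toFinset.erase 1, κ := by
          rw [Finset.sum_const, nsmul_eq_mul]
      _ ≤ ∑ γ ∈ hS₁f.toFinset.erase 1, ∫ z in C.V a₀, G γ a₀ z * vol (K.w a₀) z :=
          Finset.sum_le_sum fun γ hγ => hterm γ
            (hS₁f.mem_toFinset.1 (Finset.mem_of_mem_erase hγ)) (Finset.ne_of_mem_erase hγ)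
      _ ≤ _ := hsum.sum_le_tsum _ fun γ _ => hterm0 γ
  rw [Set.ncard_eq_toFinset_card S₁ hS₁f]
  have h6 : ((hS₁f.toFinset.erase 1).card : ℝ) ≤ M / κ := by
    rw [le_div_iff₀ hκp]
    exact h5.trans hle
  have h7 : (hS₁f.toFinset.card : ℝ) ≤ (hS₁f.toFinset.erase 1).card + 1 := by
    have h8 := Finset.pred_card_le_card_erase (s := hS₁f.toFinset) (a := (1 : Γ))
    exact_mod_cast (by omega : hS₁f.toFinset.card ≤ (hS₁f.toFinset.erase 1).card + 1)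
  linarith

/-- **KACY** for all groups, from the existence theorem. -/
theorem kacy (C : Coc n Γ) (P : PU C) (K : KM C)
    (hCY : ∀ F : Γ → C.I → Cm n → ℝ, IsTst C F → ∀ A : ℝ,
      (∀ γ a, ∀ z ∈ C.Ω a, 0 ≤ F γ a z ∧ F γ a z ≤ A) → ∃ φ, MAF C K F φ ∧
      (∀ γ a, ∀ z ∈ C.Ω a, -A ≤ φ γ a z ∧ φ γ a z ≤ 0) ∧
      {γ : Γ | ∃ a, ∃ z ∈ C.V a, φ γ a z < -(1 / 2)}.Finite)
    (hK4 : K4Stmt) (hK5 : K5Stmt) (hV4 : V4Stmt) (a₀ : C.I) (z₀ : Cm n) (ρ : ℝ) (hρ : 0 < ρ)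
    (hball : ball z₀ (4 * ρ) ⊆ C.V a₀) : Vale.Agent.P284.H731.K6.KACY C K a₀ z₀ ρ := by
  have hVΩ : ∀ a, C.V a ⊆ C.Ω a := fun a => Vale.Agent.P284.H913.V.V_sub C a
  have hku4 : KU (ball z₀ (4 * ρ)) (K.w a₀) :=
    { isOpen := isOpen_ball
      smooth := fun z hz => (K.ku a₀).smooth z (hVΩ a₀ (hball hz))
      pos := fun z hz => (K.ku a₀).pos z (hVΩ a₀ (hball hz))
      closed := fun z hz => (K.ku a₀).closed z (hVΩ a₀ (hball hz)) }
  obtain ⟨B₄, hB₄, hCLN⟩ := hK4 n z₀ (7 / 2 * ρ) (4 * ρ) (by positivity) (by linarith) (K.w a₀) hku4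
  obtain ⟨B₅, hJ⟩ := hK5 n z₀ ρ (2 * ρ) (4 * ρ) hρ (by linarith) (by linarith) (K.w a₀) hku4
  set v₀ : ℝ := (volume (ball z₀ ρ)).toReal with hv₀
  have hv₀p : 0 < v₀ := ENNReal.toReal_pos (measure_ball_pos volume _ hρ).ne' measure_ball_lt_top.ne
  set c₀ : ℝ := Real.exp (-1 / 4) - Real.exp (-1) with hc₀
  have hc₀p : 0 < c₀ := sub_pos.2 (Real.exp_lt_exp.2 (by norm_num))
  set κ : ℝ := c₀ * K.lam * v₀ with hκ
  have hκp : 0 < κ := mul_pos (mul_pos hc₀p K.lam_pos) hv₀p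
  have hB₄0 : 0 < B₄ := lt_of_lt_of_le one_pos hB₄
  obtain ⟨f, hf1, hf2, hf3, hf6, hf4, hf5⟩ := exists_bump hV4 C a₀ z₀ ρ hρ hball
  have hq0 : 0 ≤ B₄ / κ := by positivity
  have habs := abs_nonneg (Real.log B₄ + B₅)
  have hn0 : (0 : ℝ) ≤ n := Nat.cast_nonneg n
  refine ⟨1 + B₄ / κ + n + |Real.log B₄ + B₅|, by linarith, fun A hA => ?_⟩
  have hA0 : 0 < A := lt_of_lt_of_le one_pos hA
  have hAf : IsTst C (fun γ a z => A * f γ a z) :=
    { smooth := fun γ a z hz => contDiffAt_const.mul (hf1.smooth γ a z hz)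
      compat := fun γ a b z hz => by rw [hf1.compat γ a b z hz]
      fin := by
        refine hf1.fin.subset ?_
        rintro γ ⟨a, z, hz, hne⟩
        exact ⟨a, z, hz, fun h0 => hne (by rw [h0, mul_zero])⟩
      out := fun γ a z hz => by rw [hf1.out γ a z hz, mul_zero] }
  obtain ⟨φ, hφ, hmax, hfin⟩ := hCY _ hAf A (fun γ a z hz =>
    ⟨mul_nonneg hA0.le (hf2 γ a z hz).1, by nlinarith [(hf2 γ a z hz).2]⟩)
  have hneg : ∀ γ a, ∀ z ∈ C.Ω a, φ γ a z ≤ 0 := fun γ a z hz => (hmax γ a z hz).2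
  have h7V : ball z₀ (7 / 2 * ρ) ⊆ C.V a₀ := (ball_subset_ball (by linarith)).trans hball
  have hcln : ∫ z in ball z₀ (7 / 2 * ρ), (K.w a₀ z + cHess (φ 1 a₀) z).det.re ≤ B₄ * A ^ n := by
    refine hCLN A hA (φ 1 a₀) (fun z hz => hφ.smooth 1 a₀ z (hVΩ a₀ (hball hz))) (fun z hz => ?_)
      (fun z hz => hφ.pos 1 a₀ z (hVΩ a₀ (hball hz)))
    exact hmax 1 a₀ z (hVΩ a₀ (hball hz))
  have hu := isTst_pu hφ.toSmF hfin
  have hG := fam_DD K hu hφ.toSmF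
  have hM := neg_le P K a₀ z₀ ρ hρ hball hφ hneg hfin hf3 hf4 hf5 hcln
  rw [← int_pp P K hG (mass_zero P K hφ.toSmF hu)] at hM
  obtain ⟨hc1, hc2⟩ := count P K a₀ z₀ ρ hρ hball hφ hfin hf5 hM
  refine ⟨φ, ⟨hφ.toSmF, hneg, hφ.pos⟩, hc1, hc2.trans ?_, fun z hz => ?_⟩
  · have h1 : (1 : ℝ) ≤ A ^ n := one_le_pow₀ hA
    rw [mul_div_right_comm, ← hv₀, ← hc₀, ← hκ]
    have h2 := mul_nonneg hn0 (zero_le_one.trans h1)
    have h3 := mul_nonneg habs (zero_le_one.trans h1)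
    have e : (1 + B₄ / κ + n + |Real.log B₄ + B₅|) * A ^ n =
        A ^ n + B₄ / κ * A ^ n + n * A ^ n + |Real.log B₄ + B₅| * A ^ n := by ring
    rw [e]
    linarith
  · -- Jensen
    have h24 : ball z₀ (2 * ρ) ⊆ ball z₀ (4 * ρ) := ball_subset_ball (by linarith)
    have h2V : ball z₀ (2 * ρ) ⊆ C.V a₀ := h24.trans hball
    have hi4 : IntegrableOn (fun z => (K.w a₀ z + cHess (φ 1 a₀) z).det.re)
        (ball z₀ (7 / 2 * ρ)) := by
      have hc : ContinuousOn (fun z => Dn K φ 1 a₀ z * vol (K.w a₀) z) (C.Ω a₀) := by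
        refine ContinuousOn.mul (fun z hz => ?_) (Vale.Agent.P284.H913.V.vol_cont K a₀)
        exact (Dn_smooth K hφ.smooth 1 hz).continuousAt.continuousWithinAt
      have h1 : IntegrableOn (fun z => Dn K φ 1 a₀ z * vol (K.w a₀) z) (C.V a₀) :=
        Vale.Agent.P284.H913.V.intV hc
      refine (h1.mono_set h7V).congr_fun (fun z hz => ?_) measurableSet_ball
      show Dn K φ 1 a₀ z * vol (K.w a₀) z = _
      rw [Dn, div_mul_cancel₀ _ (vol_pos K (hVΩ a₀ (h7V hz))).ne']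
    have hM : 0 < Real.exp (-A) * (B₄ * A ^ n) := by positivity
    have h1 : ∫ z in ball z₀ (2 * ρ), Real.exp (φ 1 a₀ z) * vol (K.w a₀) z ≤
        Real.exp (-A) * (B₄ * A ^ n) := by
      have h2 : ∫ z in ball z₀ (2 * ρ), Real.exp (φ 1 a₀ z) * vol (K.w a₀) z =
          Real.exp (-A) * ∫ z in ball z₀ (2 * ρ), (K.w a₀ z + cHess (φ 1 a₀) z).det.re := by
        rw [← integral_const_mul]
        refine setIntegral_congr_fun measurableSet_ball fun y hy => ?_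
        have hy' := hVΩ a₀ (h2V hy)
        show Real.exp (φ 1 a₀ y) * vol (K.w a₀) y =
          Real.exp (-A) * (K.w a₀ y + cHess (φ 1 a₀) y).det.re
        rw [det_eq hφ 1 hy', hf6 y hy, mul_one, ← mul_assoc, ← Real.exp_add]
        congr 2
        ring
      rw [h2]
      refine mul_le_mul_of_nonneg_left (le_trans ?_ hcln) (Real.exp_pos _).le
      refine setIntegral_mono_set hi4 ?_
        (LE.le.eventuallyLE (ball_subset_ball (by linarith)))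
      refine (ae_restrict_iff' measurableSet_ball).2 (Eventually.of_forall fun y hy => ?_)
      exact (Complex.lt_def.1 (hφ.pos 1 a₀ y (hVΩ a₀ (h7V hy))).det_pos).1.le
    have h2 := hJ (φ 1 a₀) (fun y hy => hφ.smooth 1 a₀ y (hVΩ a₀ (hball hy)))
      (fun y hy => hneg 1 a₀ y (hVΩ a₀ (hball hy))) (fun y hy => hφ.pos 1 a₀ y (hVΩ a₀ (hball hy)))
      _ hM h1 z hz
    refine h2.trans ?_
    rw [Real.log_mul (Real.exp_pos _).ne' (by positivity), Real.log_exp,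
      Real.log_mul hB₄0.ne' (by positivity), Real.log_pow]
    have hlA : 0 ≤ Real.log A := Real.log_nonneg hA
    have h3 := le_abs_self (Real.log B₄ + B₅)
    have h5 : 0 ≤ (1 + B₄ / κ + |Real.log B₄ + B₅|) * Real.log A := by positivity
    nlinarith

end Vale.Agent.P284.H10.CY
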