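import Vale.Agent.P284.H977.K.K4

/-!
# P284, theorem CY (helper10): statement of the exhaustion row
-/

open scoped Manifold ContDiff Topology Pointwise ComplexConjugate ComplexOrder Matrix
open Filter Set Metric MeasureTheory

noncomputable section

namespace Vale.Agent.P284.H10.CY

open Vale.Agent.P272.K Vale.Agent.P284.H248 Vale.Agent.P284.H894 Vale.Agent.P284.H894.G
  Vale.Agent.P284.H894.V Vale.Agent.P284.H409.K

/-- **EXH**: a smooth proper function on the covering with bounded first and second derivatives: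
`ρ γ a z = 1 + Σ_b χ_b a z * len (γ * κ_ab z)`, `len` = distance from `1` in the graph of the pieces. -/
def ExhStmt : Prop :=
  ∀ (n : ℕ) (Γ : Type) [Group Γ] (C : Coc n Γ) (_ : PU C) (K : KM C),
    ∃ (ρ : Γ → C.I → Cm n → ℝ) (B : ℝ), SmF C ρ ∧ 0 ≤ B ∧
      (∀ γ a, ∀ z ∈ C.Ω a, 1 ≤ ρ γ a z) ∧
      (∀ R : ℝ, {γ : Γ | ∃ a, ∃ z ∈ C.Ω a, ρ γ a z ≤ R}.Finite) ∧
      ∀ γ a, ∀ z ∈ C.V a,
        ((B : ℂ) • K.w a z - cHess (ρ γ a) z).PosSemidef ∧
        ((B : ℂ) • K.w a z + cHess (ρ γ a) z).PosSemidef ∧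
        ((B : ℂ) • K.w a z - Matrix.vecMulVec (fun j => dz j (fun y => (ρ γ a y : ℂ)) z)
          (star fun j => dz j (fun y => (ρ γ a y : ℂ)) z)).PosSemidef

end Vale.Agent.P284.H10.CY
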