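import Vale.Agent.P284.H10.CY.MaxE
import Vale.Agent.P284.H10.CY.Exh

/-!
# P284, theorem CY (helper10): the solutions tend to zero at infinity
-/

open scoped Manifold ContDiff Topology Pointwise ComplexConjugate ComplexOrder Matrix
open Filter Set Metric MeasureTheory

noncomputable section

namespace Vale.Agent.P284.H10.CY

open Vale.Agent.P272.K Vale.Agent.P284.H248 Vale.Agent.P284.H894 Vale.Agent.P284.H894.G
  Vale.Agent.P284.H894.V Vale.Agent.P284.H894.W Vale.Agent.P284.H913.V Vale.Agent.P284.H409.A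
  Vale.Agent.P284.H409.K Vale.Agent.P284.H977.K

variable {n : ℕ}

theorem log_ge {x : ℝ} (h0 : 0 ≤ x) (h1 : x ≤ 1 / 2) : -(2 * x) ≤ Real.log (1 - x) := by
  have h2 : 0 < 1 - x := by linarith
  have h3 := Real.one_sub_inv_le_log_of_pos h2
  have h4 : (1 - x)⁻¹ ≤ 1 + 2 * x := by
    rw [inv_le_comm₀ h2 (by linarith), inv_le_iff_one_le_mul₀ (by linarith)] 
    nlinarith
  linarith

/-- the Hessian of the barrier -/
theorem hess_bar {ρ : Cm n → ℝ} {z : Cm n} (hρ : ContDiffAt ℝ 2 ρ z) (A s ρ₀ B : ℝ) (hA : 0 ≤ A)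
    (hs : 0 ≤ s) {W : Matrix (Fin n) (Fin n) ℂ}
    (h1 : ((B : ℂ) • W + cHess ρ z).PosSemidef)
    (h2 : ((B : ℂ) • W - Matrix.vecMulVec (fun j => dz j (fun y => (ρ y : ℂ)) z)
          (star fun j => dz j (fun y => (ρ y : ℂ)) z)).PosSemidef) :
    (cHess (fun y => -A * Real.exp (-s * (ρ y - ρ₀))) z +
      (((s + s ^ 2) * B * (A * Real.exp (-s * (ρ z - ρ₀))) : ℝ) : ℂ) • W).PosSemidef := by
  set E : ℝ := A * Real.exp (-s * (ρ z - ρ₀)) with hE
  have hE0 : 0 ≤ E := mul_nonneg hA (Real.exp_pos _).le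
  have hlin : ∀ t : ℝ, HasDerivAt (fun t : ℝ => -s * (t - ρ₀)) (-s * 1) t := fun t =>
    ((hasDerivAt_id t).sub_const ρ₀).const_mul (-s)
  have hd1 : ∀ t : ℝ, HasDerivAt (fun t => -A * Real.exp (-s * (t - ρ₀)))
      (s * A * Real.exp (-s * (t - ρ₀))) t := by
    intro t
    refine (((hlin t).exp).const_mul (-A)).congr_deriv ?_
    ring
  have hd2 : HasDerivAt (fun t => s * A * Real.exp (-s * (t - ρ₀)))
      (-(s ^ 2 * E)) (ρ z) := by
    refine (((hlin (ρ z)).exp).const_mul (s * A)).congr_deriv ?_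
    rw [hE]
    ring
  have e : cHess (fun y => -A * Real.exp (-s * (ρ y - ρ₀))) z + (((s + s ^ 2) * B * E : ℝ) : ℂ) • W =
      ((s * E : ℝ) : ℂ) • ((B : ℂ) • W + cHess ρ z) +
        ((s ^ 2 * E : ℝ) : ℂ) • ((B : ℂ) • W -
          Matrix.vecMulVec (fun j => dz j (fun y => (ρ y : ℂ)) z)
          (star fun j => dz j (fun y => (ρ y : ℂ)) z)) := by
    ext j k
    have h3 := C2.cHess_comp (ψ := fun t => -A * Real.exp (-s * (t - ρ₀)))
      (ψ₁ := fun t => s * A * Real.exp (-s * (t - ρ₀))) (ψ₂ := -(s ^ 2 * E))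
      (Eventually.of_forall hd1) hd2 hρ j k
    simp only [Matrix.add_apply, Matrix.sub_apply, Matrix.smul_apply, smul_eq_mul,
      Matrix.vecMulVec_apply, Pi.star_apply]
    rw [h3, C2.dzb_real k (hρ.differentiableAt (by norm_num)), hE]
    simp only [RCLike.star_def]
    push_cast
    ring
  rw [e]
  exact (smul_psd (mul_nonneg hs hE0) h1).add (smul_psd (by positivity) h2)

theorem consts (n : ℕ) {B A' : ℝ} (hB : 0 ≤ B) (hA1 : 1 ≤ A') :
    ∃ s : ℝ, 0 < s ∧ (s + s ^ 2) * B * A' ≤ 1 / 4 ∧ 2 * n * ((s + s ^ 2) * B) ≤ 1 := by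
  set s : ℝ := 1 / (8 * (B + 1) * (A' + 1) * (n + 1)) with hs
  have hn0 : (0 : ℝ) ≤ n := Nat.cast_nonneg n
  have hden : 0 < 8 * (B + 1) * (A' + 1) * (n + 1) := by positivity
  have hs0 : 0 < s := by positivity
  have hden1 : (1 : ℝ) ≤ 8 * (B + 1) * (A' + 1) * (n + 1) := by
    have h1 : (1 : ℝ) ≤ 8 * (B + 1) := by linarith
    have h2 : (1 : ℝ) ≤ 8 * (B + 1) * (A' + 1) := by nlinarith
    nlinarith
  have hs1 : s ≤ 1 := by
    rw [hs, div_le_one hden]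
    exact hden1
  have hκ1 : (s + s ^ 2) * B ≤ 2 * s * B := by
    have : s ^ 2 ≤ s := by nlinarith
    nlinarith
  have hκ2 : 2 * s * B * (4 * (A' + 1) * (n + 1)) ≤ 1 := by
    have h1 : s * (8 * (B + 1) * (A' + 1) * (n + 1)) = 1 := by
      rw [hs]; field_simp
    have h2 : 0 ≤ s * (8 * (A' + 1) * (n + 1)) := by positivity
    nlinarith
  have h2 : 0 ≤ 2 * s * B := by positivity
  refine ⟨s, hs0, ?_, ?_⟩
  · have h1 : (s + s ^ 2) * B * A' ≤ 2 * s * B * A' := mul_le_mul_of_nonneg_right hκ1 (by linarith)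
    have h3 : 2 * s * B * (4 * A') ≤ 2 * s * B * (4 * (A' + 1) * (n + 1)) := by
      refine mul_le_mul_of_nonneg_left ?_ h2
      nlinarith
    linarith
  · have h1 : (n : ℝ) * ((s + s ^ 2) * B) ≤ n * (2 * s * B) := mul_le_mul_of_nonneg_left hκ1 hn0
    have h3 : 2 * s * B * (2 * n) ≤ 2 * s * B * (4 * (A' + 1) * (n + 1)) := by
      refine mul_le_mul_of_nonneg_left ?_ h2
      nlinarith
    linarith

/-- the inequality at an approximate maximum of the difference of the barrier and the solution -/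
theorem bar_pt {ψ φ : Cm n → ℝ} {z : Cm n} (hψ : ContDiffAt ℝ 2 ψ z) (hφ : ContDiffAt ℝ 2 φ z)
    {W : Matrix (Fin n) (Fin n) ℂ} (hW : W.PosDef) {κ E δ : ℝ} (hδ0 : 0 ≤ δ) (hE : 0 ≤ E)
    (hκ0 : 0 ≤ κ) (hx1 : κ * E + δ ≤ 1 / 2) (hκn : 2 * n * κ ≤ 1)
    (hH : ((δ : ℂ) • W - cHess (fun y => ψ y + (-1) * φ y) z).PosSemidef)
    (hbar : (cHess ψ z + ((κ * E : ℝ) : ℂ) • W).PosSemidef)
    (heq : Real.log (W + cHess φ z).det.re - Real.log W.det.re = φ z) :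
    -E - 2 * n * δ ≤ φ z := by
  have hn0 : (0 : ℝ) ≤ n := Nat.cast_nonneg n
  set t : ℝ := 1 - (κ * E + δ) with ht
  have hκE0 : 0 ≤ κ * E := mul_nonneg hκ0 hE
  have ht0 : 0 < t := by rw [ht]; linarith
  have hcH : cHess (fun y => ψ y + (-1) * φ y) z = cHess ψ z - cHess φ z := by
    rw [C2.cHess_add hψ (contDiffAt_const.mul hφ), C2.cHess_const_mul _ hφ]
    push_cast
    rw [neg_smul, one_smul, sub_eq_add_neg]
  have hpsd : ((W + cHess φ z) - (t : ℂ) • W).PosSemidef := by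
    have e : (W + cHess φ z) - (t : ℂ) • W =
        ((δ : ℂ) • W - cHess (fun y => ψ y + (-1) * φ y) z) +
          (cHess ψ z + ((κ * E : ℝ) : ℂ) • W) := by
      rw [hcH, ht]
      push_cast
      module
    rw [e]
    exact hH.add hbar
  have hdet := det_re_le (smul_pd ht0 hW) hpsd
  rw [det_smul_re] at hdet
  have hWd : 0 < W.det.re := (Complex.lt_def.1 hW.det_pos).1
  have hlog : n * Real.log t ≤ φ z := by
    have h1 : Real.log (t ^ n * W.det.re) ≤ Real.log (W + cHess φ z).det.re :=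
      Real.log_le_log (by positivity) hdet
    rw [Real.log_mul (by positivity) hWd.ne', Real.log_pow] at h1
    linarith
  have hlg := log_ge (x := κ * E + δ) (by linarith) hx1
  rw [← ht] at hlg
  have h5 : (n : ℝ) * (-(2 * (κ * E + δ))) ≤ n * Real.log t :=
    mul_le_mul_of_nonneg_left hlg hn0
  have h6 : 2 * n * κ * E ≤ E := by
    have := mul_le_mul_of_nonneg_right hκn hE
    linarith
  linarith

section
variable {Γ : Type} [Group Γ]

theorem exists_rho0 {C : Coc n Γ} {ρ F : Γ → C.I → Cm n → ℝ} (hρ : SmF C ρ)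
    (hF : {γ : Γ | ∃ a, ∃ z ∈ C.V a, F γ a z ≠ 0}.Finite) :
    ∃ ρ₀ : ℝ, ∀ γ a, ∀ z ∈ C.V a, F γ a z ≠ 0 → ρ γ a z ≤ ρ₀ := by
  classical
  have h1 : ∀ γ a, ∃ b : ℝ, ∀ z ∈ C.V a, ρ γ a z ≤ b := by
    intro γ a
    have hsub : closedBall (C.c a) (3 * C.r a) ⊆ C.Ω a :=
      closedBall_subset_ball (by linarith [C.r_pos a])
    have hc : ContinuousOn (ρ γ a) (closedBall (C.c a) (3 * C.r a)) := fun z hz =>
      (hρ.smooth γ a z (hsub hz)).continuousAt.continuousWithinAt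
    obtain ⟨b, hb⟩ := (isCompact_closedBall _ _).bddAbove_image hc
    exact ⟨b, fun z hz => hb (mem_image_of_mem _ (ball_subset_closedBall hz))⟩
  choose b hb using h1
  obtain ⟨M, hM⟩ := ((hF.toFinset ×ˢ (Finset.univ : Finset C.I)).image
    fun p : Γ × C.I => b p.1 p.2).exists_le
  refine ⟨M, fun γ a z hz hne => (hb γ a z hz).trans (hM _ ?_)⟩
  exact Finset.mem_image.2 ⟨(γ, a), Finset.mem_product.2 ⟨hF.mem_toFinset.2 ⟨a, z, hz, hne⟩,
    Finset.mem_univ _⟩, rfl⟩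

/-- comparison with the barrier -/
theorem ge_bar (C : Coc n Γ) (K : KM C) (F φ ρ : Γ → C.I → Cm n → ℝ)
    (h : MAF C K F φ) (A A' B s ρ₀ : ℝ) (hφ : ∀ γ a, ∀ z ∈ C.Ω a, -A ≤ φ γ a z)
    (hρ : SmF C ρ) (hB : 0 ≤ B)
    (hρ2 : ∀ γ a, ∀ z ∈ C.V a,
        ((B : ℂ) • K.w a z + cHess (ρ γ a) z).PosSemidef ∧
        ((B : ℂ) • K.w a z - Matrix.vecMulVec (fun j => dz j (fun y => (ρ γ a y : ℂ)) z)
          (star fun j => dz j (fun y => (ρ γ a y : ℂ)) z)).PosSemidef)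
    (hA1 : 1 ≤ A') (hA2 : A ≤ A') (hs0 : 0 < s)
    (hρ₀ : ∀ γ a, ∀ z ∈ C.V a, F γ a z ≠ 0 → ρ γ a z ≤ ρ₀)
    (hκA : (s + s ^ 2) * B * A' ≤ 1 / 4) (hκn : 2 * n * ((s + s ^ 2) * B) ≤ 1) :
    ∀ γ a, ∀ z ∈ C.Ω a, -A' * Real.exp (-s * (ρ γ a z - ρ₀)) ≤ φ γ a z := by
  have hn0 : (0 : ℝ) ≤ n := Nat.cast_nonneg n
  set ψ : Γ → C.I → Cm n → ℝ := fun γ a z => -A' * Real.exp (-s * (ρ γ a z - ρ₀)) with hψ
  have hψs : ∀ γ a, ∀ z ∈ C.Ω a, ContDiffAt ℝ ∞ (ψ γ a) z := fun γ a z hz =>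
    contDiffAt_const.mul ((contDiffAt_const.mul ((hρ.smooth γ a z hz).sub contDiffAt_const)).exp)
  by_contra hcon
  push Not at hcon
  obtain ⟨γ₁, a₁, z₁, hz₁, hlt⟩ := hcon
  set η : ℝ := ψ γ₁ a₁ z₁ - φ γ₁ a₁ z₁ with hη
  have hη0 : 0 < η := sub_pos.2 hlt
  set δ : ℝ := min (1 / 4) (η / (4 * (n + 1))) with hδ
  have hδ0 : 0 < δ := lt_min (by norm_num) (by positivity)
  have hδ1 : δ ≤ 1 / 4 := min_le_left _ _
  have hδ2 : δ * (4 * (n + 1)) ≤ η := by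
    have := min_le_right (1 / 4 : ℝ) (η / (4 * (n + 1)))
    rw [← hδ] at this
    rwa [le_div_iff₀ (by positivity)] at this
  have hδn : 0 ≤ δ * n := mul_nonneg hδ0.le hn0
  obtain ⟨γ, a, z, hz, hmx, hH⟩ := maxE C K (fun γ a z => ψ γ a z + (-1) * φ γ a z)
    (fun γ a z hz => ((hψs γ a z hz).add
      (contDiffAt_const.mul (h.smooth γ a z hz))).of_le (by norm_cast))
    (fun γ a b z hz => by
      simp only [hψ]
      rw [hρ.compat γ a b z hz, h.compat γ a b z hz]) A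
    (fun γ a z hz => by
      have h1 := hφ γ a z (V_sub C a (W_V C a hz))
      have h2 : ψ γ a z ≤ 0 := by
        simp only [hψ]
        have := Real.exp_pos (-s * (ρ γ a z - ρ₀))
        nlinarith
      linarith) δ hδ0
  have hzΩ := V_sub C a hz
  have hm1 := hmx γ₁ a₁ z₁ hz₁
  have hm2 : η ≤ ψ γ a z - φ γ a z + δ := by
    rw [hη]
    linarith
  have hu0 : 0 < ψ γ a z - φ γ a z := by linarith
  have hE0 := Real.exp_pos (-s * (ρ γ a z - ρ₀))
  -- off the support of `F`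
  have hF0 : F γ a z = 0 := by
    by_contra hne
    have h1 := hρ₀ γ a z hz hne
    have h2 : 1 ≤ Real.exp (-s * (ρ γ a z - ρ₀)) := by
      rw [← Real.exp_zero]
      exact Real.exp_le_exp.2 (by nlinarith)
    have h3 : ψ γ a z ≤ -A' := by
      simp only [hψ]
      nlinarith
    have h4 := hφ γ a z hzΩ
    linarith
  set E : ℝ := A' * Real.exp (-s * (ρ γ a z - ρ₀)) with hE
  have hψE : ψ γ a z = -E := by
    simp only [hψ, hE]
    ring
  have hEp : 0 ≤ E := by positivity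
  have hEA : E ≤ A' := by
    have h4 := hφ γ a z hzΩ
    rw [hψE] at hu0
    linarith
  have hκ0 : 0 ≤ (s + s ^ 2) * B := by positivity
  have hκE : (s + s ^ 2) * B * E ≤ (s + s ^ 2) * B * A' := mul_le_mul_of_nonneg_left hEA hκ0
  obtain ⟨r2, r3⟩ := hρ2 γ a z hz
  have hbar := hess_bar ((hρ.smooth γ a z hzΩ).of_le (by norm_cast)) A' s ρ₀ B
    (by linarith) hs0.le r2 r3
  have heq := h.eq γ a z hzΩ
  rw [hF0, add_zero] at heq
  have h7 := bar_pt ((hψs γ a z hzΩ).of_le (by norm_cast))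
    ((h.smooth γ a z hzΩ).of_le (by norm_cast)) ((K.ku a).pos z hzΩ) hδ0.le hEp hκ0
    (by linarith) hκn hH hbar heq
  rw [hψE] at hm2
  have h8 : η ≤ 2 * n * δ + δ := by linarith
  linarith

/-- the solutions tend to zero at infinity -/
theorem decay (hX : ExhStmt) (C : Coc n Γ) (P : PU C) (K : KM C) (F φ : Γ → C.I → Cm n → ℝ)
    (h : MAF C K F φ) (A : ℝ) (hφ : ∀ γ a, ∀ z ∈ C.Ω a, -A ≤ φ γ a z)
    (hF : {γ : Γ | ∃ a, ∃ z ∈ C.V a, F γ a z ≠ 0}.Finite) (x : ℝ) (hx : 0 < x) :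
    {γ : Γ | ∃ a, ∃ z ∈ C.Ω a, φ γ a z < -x}.Finite := by
  classical
  obtain ⟨ρ, B, hρ, hB, hρ1, hρf, hρ2⟩ := hX n Γ C P K
  set A' : ℝ := max A 1 with hA'
  have hA1 : 1 ≤ A' := le_max_right _ _
  have hA2 : A ≤ A' := le_max_left _ _
  obtain ⟨ρ₀, hρ₀⟩ := exists_rho0 hρ hF
  obtain ⟨s, hs0, hκA, hκn⟩ := consts n hB hA1
  have hmain := ge_bar C K F φ ρ h A A' B s ρ₀ hφ hρ hB (fun γ a z hz => (hρ2 γ a z hz).2)
    hA1 hA2 hs0 hρ₀ hκA hκn
  refine (hρf (ρ₀ + Real.log (A' / x) / s)).subset ?_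
  rintro γ ⟨a, z, hz, hlt⟩
  refine ⟨a, z, hz, ?_⟩
  have h1 := hmain γ a z hz
  have h2 : x < A' * Real.exp (-s * (ρ γ a z - ρ₀)) := by linarith
  have hA0 : 0 < A' := by linarith
  have h3 : Real.log (x / A') ≤ -s * (ρ γ a z - ρ₀) := by
    have h4 : x / A' < Real.exp (-s * (ρ γ a z - ρ₀)) := by
      rw [div_lt_iff₀ hA0]
      linarith
    have h5 := Real.log_le_log (by positivity) h4.le
    rwa [Real.log_exp] at h5
  have h6 : Real.log (x / A') = -Real.log (A' / x) := by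
    rw [← Real.log_inv, inv_div]
  rw [h6] at h3
  have h8 : ρ γ a z - ρ₀ ≤ Real.log (A' / x) / s := by
    rw [le_div_iff₀ hs0]
    linarith
  linarith

end

end Vale.Agent.P284.H10.CY
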