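import Vale.Agent.P284.H977.K.K4
import Vale.Agent.P272.K.N.MaxP

/-!
# P284, theorem CY (helper10): the approximate maximum principle on the covering

A function of class `C²` on the pieces which is bounded above has, for every `δ > 0`, a point where it
is within `δ` of its supremum and where its complex Hessian is at most `δ w`.
-/

open scoped Manifold ContDiff Topology Pointwise ComplexConjugate ComplexOrder Matrix
open Filter Set Metric MeasureTheory

noncomputable section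

namespace Vale.Agent.P284.H10.CY

open Vale.Agent.P272.K Vale.Agent.P284.H248 Vale.Agent.P284.H894 Vale.Agent.P284.H894.G
  Vale.Agent.P284.H894.V Vale.Agent.P284.H894.W Vale.Agent.P284.H913.V Vale.Agent.P284.H409.A
  Vale.Agent.P284.H409.K

variable {n : ℕ}

/-- the lower bound of the quadratic form as an inequality of matrices -/
theorem sub_one_psd {w : Matrix (Fin n) (Fin n) ℂ} (hw : w.IsHermitian) {lam : ℝ}
    (hlow : ∀ v : Cm n, lam * ∑ j, ‖v j‖ ^ 2 ≤ (∑ j, ∑ k, w j k * v j * conj (v k)).re) :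
    (w - (lam : ℂ) • 1).PosSemidef := by
  have hH : (w - (lam : ℂ) • (1 : Matrix (Fin n) (Fin n) ℂ)).IsHermitian := by
    refine hw.sub ?_
    rw [Matrix.IsHermitian, Matrix.conjTranspose_smul, Matrix.conjTranspose_one]
    simp
  refine Matrix.PosSemidef.of_dotProduct_mulVec_nonneg hH fun a => ?_
  have h0 : (star a ⬝ᵥ ((w - (lam : ℂ) • (1 : Matrix (Fin n) (Fin n) ℂ)) *ᵥ a)) =
      (∑ j, ∑ k, w j k * (star a) j * conj ((star a) k)) - (lam : ℂ) * ∑ j, ((‖a j‖ ^ 2 : ℝ) : ℂ) := by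
    rw [Matrix.sub_mulVec, Matrix.smul_mulVec, Matrix.one_mulVec, dotProduct_sub, dotProduct_smul]
    congr 1
    · simp only [dotProduct, Matrix.mulVec, Finset.mul_sum]
      refine Finset.sum_congr rfl fun j _ => Finset.sum_congr rfl fun k _ => ?_
      simp only [Pi.star_apply, RCLike.star_def, Complex.conj_conj]
      ring
    · rw [smul_eq_mul]
      congr 1
      simp only [dotProduct]
      refine Finset.sum_congr rfl fun j _ => ?_
      rw [Pi.star_apply, RCLike.star_def, mul_comm, Complex.mul_conj, Complex.normSq_eq_norm_sq]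
  have him : (star a ⬝ᵥ ((w - (lam : ℂ) • (1 : Matrix (Fin n) (Fin n) ℂ)) *ᵥ a)).im = 0 := by
    have := hH.im_star_dotProduct_mulVec_self a
    simpa using this
  rw [Complex.le_def, him]
  refine ⟨?_, rfl⟩
  rw [h0, Complex.sub_re, Complex.zero_re, Complex.re_ofReal_mul, ← Complex.ofReal_sum,
    Complex.ofReal_re]
  have h1 := hlow (star a)
  have h2 : ∑ j, ‖(star a) j‖ ^ 2 = ∑ j, ‖a j‖ ^ 2 :=
    Finset.sum_congr rfl fun j _ => by rw [Pi.star_apply, norm_star]
  rw [h2] at h1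
  linarith

theorem norm_le_of_sq {a z : Cm n} {R : ℝ} (hR : 0 ≤ R) (h : AMP.sq a z ≤ R ^ 2) :
    z ∈ closedBall a R := by
  rw [mem_closedBall, dist_pi_le_iff hR]
  intro i
  have h1 : Complex.normSq (z i - a i) ≤ AMP.sq a z :=
    Finset.single_le_sum (f := fun i => Complex.normSq (z i - a i))
      (fun i _ => Complex.normSq_nonneg _) (Finset.mem_univ i)
  rw [Complex.normSq_eq_norm_sq] at h1
  rw [dist_eq_norm]
  exact le_of_sq_le_sq (h1.trans h) hR

section
variable {Γ : Type} [Group Γ]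

theorem W_V (C : Coc n Γ) (a : C.I) : C.W a ⊆ C.V a :=
  ball_subset_ball (by linarith [C.r_pos a])

/-- the approximate maximum principle, on the balls `V` -/
theorem maxV (C : Coc n Γ) (K : KM C) (u : Γ → C.I → Cm n → ℝ)
    (hu : ∀ γ a, ∀ z ∈ C.V a, ContDiffAt ℝ 2 (u γ a) z)
    (hc : ∀ γ a b, ∀ z ∈ C.O a b, z ∈ C.V a → C.T a b z ∈ C.V b →
      u γ a z = u (γ * C.κ a b z) b (C.T a b z))
    (B : ℝ) (hB : ∀ γ a, ∀ z ∈ C.W a, u γ a z ≤ B) (δ : ℝ) (hδ : 0 < δ) :
    ∃ γ a z, z ∈ C.V a ∧ (∀ γ' b, ∀ z' ∈ C.V b, u γ' b z' ≤ u γ a z + δ) ∧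
      ((δ : ℂ) • K.w a z - cHess (u γ a) z).PosSemidef := by
  classical
  obtain ⟨a', ha'⟩ := Finite.exists_min C.r
  set r0 : ℝ := C.r a' with hr0
  have hr0p : 0 < r0 := C.r_pos a'
  have hlam := K.lam_pos
  set ε : ℝ := min δ (δ * K.lam * r0 ^ 2 / 2) with hε
  have hεp : 0 < ε := lt_min hδ (by positivity)
  have hε1 : ε ≤ δ := min_le_left _ _
  have hε2 : 2 * ε / r0 ^ 2 ≤ δ * K.lam := by
    rw [div_le_iff₀ (by positivity)]
    have := min_le_right δ (δ * K.lam * r0 ^ 2 / 2)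
    rw [← hε] at this
    linarith
  set S : Set ℝ := {y | ∃ γ b, ∃ z ∈ C.W b, u γ b z = y} with hS
  have hSne : S.Nonempty := ⟨_, 1, a', C.c a', mem_ball_self (C.r_pos a'), rfl⟩
  have hSb : BddAbove S := ⟨B, by
    rintro y ⟨γ, b, z, hz, rfl⟩
    exact hB γ b z hz⟩
  set s : ℝ := sSup S with hs
  have hall : ∀ γ b, ∀ z ∈ C.V b, u γ b z ≤ s := by
    intro γ b z hz
    obtain ⟨b', h1, h2⟩ := C.cover b z (V_sub C b hz)
    rw [hc γ b b' z h1 hz (W_V C b' h2)]
    exact le_csSup hSb ⟨_, b', _, h2, rfl⟩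
  obtain ⟨y, ⟨γ, a, z0, hz0, rfl⟩, hy⟩ := exists_lt_of_lt_csSup hSne (show s - ε < sSup S by
    rw [← hs]; linarith)
  -- the compact set
  set D : Set (Cm n) := {z | AMP.sq z0 z ≤ r0 ^ 2} with hD
  have hDV : D ⊆ C.V a := by
    intro z hz
    have h1 := norm_le_of_sq hr0p.le hz
    rw [mem_closedBall] at h1
    have h2 : dist z0 (C.c a) < C.r a := hz0
    have h3 := ha' a
    have h4 := dist_triangle z z0 (C.c a)
    show z ∈ ball (C.c a) (3 * C.r a)
    rw [mem_ball]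
    have := C.r_pos a
    linarith
  have hDc : IsCompact D := by
    refine (isCompact_closedBall z0 r0).of_isClosed_subset ?_ fun z hz => norm_le_of_sq hr0p.le hz
    exact isClosed_le (AMP.contDiff_sq z0).continuous continuous_const
  have hq : ∀ z, ContDiffAt ℝ 2 (AMP.sq z0) z := fun z =>
    (AMP.contDiff_sq z0).contDiffAt.of_le (by norm_cast)
  set c : ℝ := 2 * ε / r0 ^ 2 with hcdef
  set f : Cm n → ℝ := fun z => (u γ a z + 2 * ε) + (-c) * AMP.sq z0 z with hf
  have hfs : ∀ z ∈ C.V a, ContDiffAt ℝ 2 f z := fun z hz =>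
    ((hu γ a z hz).add contDiffAt_const).add (contDiffAt_const.mul (hq z))
  have hfc : ContinuousOn f D := fun z hz => (hfs z (hDV hz)).continuousAt.continuousWithinAt
  have hsq0 : AMP.sq z0 z0 = 0 := by simp [AMP.sq]
  have hz0D : z0 ∈ D := by
    show AMP.sq z0 z0 ≤ r0 ^ 2
    rw [hsq0]
    positivity
  obtain ⟨z1, hz1, hmax⟩ := hDc.exists_isMaxOn ⟨z0, hz0D⟩ hfc
  have hf0 : s + ε < f z0 := by
    simp only [hf, hsq0, mul_zero, add_zero]
    linarith
  have hf1 : s + ε < f z1 := hf0.trans_le (hmax hz0D)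
  have hcr : c * r0 ^ 2 = 2 * ε := by
    rw [hcdef]
    field_simp
  have hlt : AMP.sq z0 z1 < r0 ^ 2 := by
    rcases lt_or_eq_of_le (show AMP.sq z0 z1 ≤ r0 ^ 2 from hz1) with h | h
    · exact h
    · exfalso
      have h1 : f z1 = u γ a z1 := by
        simp only [hf, h]
        linarith
      have h2 := hall γ a z1 (hDV hz1)
      linarith
  have hloc : IsLocalMax f z1 := by
    have ho : IsOpen {z : Cm n | AMP.sq z0 z < r0 ^ 2} :=
      isOpen_lt (AMP.contDiff_sq z0).continuous continuous_const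
    filter_upwards [ho.mem_nhds hlt] with z hz
    exact hmax (show z ∈ D from le_of_lt hz)
  have hz1V := hDV hz1
  have hneg := N.neg_cHess_posSemidef (hfs z1 hz1V) hloc
  have hH : cHess f z1 = cHess (u γ a) z1 - (c : ℂ) • 1 := by
    rw [hf, C2.cHess_add ((hu γ a z1 hz1V).add contDiffAt_const) (contDiffAt_const.mul (hq z1)),
      C2.cHess_add (hu γ a z1 hz1V) contDiffAt_const, C2.cHess_const,
      C2.cHess_const_mul _ (hq z1), AMP.cHess_sq]
    simp [sub_eq_add_neg]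
  refine ⟨γ, a, z1, hz1V, fun γ' b z' hz' => ?_, ?_⟩
  · have h1 := hall γ' b z' hz'
    have h2 : f z1 ≤ u γ a z1 + 2 * ε := by
      have h3 : 0 ≤ c * AMP.sq z0 z1 := mul_nonneg (by positivity) (AMP.normSq_sum_nonneg470 _ _)
      simp only [hf]
      linarith
    linarith
  · have hpos := (K.ku a).pos z1 (V_sub C a hz1V)
    have h1 := sub_one_psd hpos.isHermitian (K.low a z1 (V_sub C a hz1V))
    have h2 : ((δ : ℂ) • K.w a z1 - cHess (u γ a) z1) =
        (δ : ℂ) • (K.w a z1 - (K.lam : ℂ) • 1) +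
          (((δ * K.lam - c : ℝ) : ℂ) • (1 : Matrix (Fin n) (Fin n) ℂ) + -cHess f z1) := by
      rw [hH, smul_sub, smul_smul]
      push_cast
      module
    rw [h2]
    exact (h1.smul (by exact_mod_cast hδ.le)).add
      (((Matrix.PosSemidef.one).smul (by exact_mod_cast sub_nonneg.2 hε2)).add hneg)

/-- the approximate maximum principle -/
theorem maxE (C : Coc n Γ) (K : KM C) (u : Γ → C.I → Cm n → ℝ)
    (hu : ∀ γ a, ∀ z ∈ C.Ω a, ContDiffAt ℝ 2 (u γ a) z)
    (hc : ∀ γ a b, ∀ z ∈ C.O a b, u γ a z = u (γ * C.κ a b z) b (C.T a b z))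
    (B : ℝ) (hB : ∀ γ a, ∀ z ∈ C.W a, u γ a z ≤ B) (δ : ℝ) (hδ : 0 < δ) :
    ∃ γ a z, z ∈ C.V a ∧ (∀ γ' b, ∀ z' ∈ C.Ω b, u γ' b z' ≤ u γ a z + δ) ∧
      ((δ : ℂ) • K.w a z - cHess (u γ a) z).PosSemidef := by
  obtain ⟨γ, a, z, hz, h1, h2⟩ := maxV C K u (fun γ a z hz => hu γ a z (V_sub C a hz))
    (fun γ a b z hz _ _ => hc γ a b z hz) B hB δ hδ
  refine ⟨γ, a, z, hz, fun γ' b z' hz' => ?_, h2⟩
  obtain ⟨b', h3, h4⟩ := C.cover b z' hz'
  rw [hc γ' b b' z' h3]
  exact h1 _ b' _ (W_V C b' h4)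

end

end Vale.Agent.P284.H10.CY
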