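import Vale.Agent.P284.H10.CY.KAll
import Vale.Agent.P284.H636.CY.Cl

/-! P284, theorem CY (helper10): the estimates of theorem K on the covering, for all groups. -/

noncomputable section

namespace Vale.Agent.P284.H10.CY

/-- the estimates of theorem K on the covering, for all groups -/
theorem kacyAll' : H446.K.KACYAll := kacyAll H636.CY.cyEx

/-- The fundamental group of a compact Kähler manifold which is joined by entire curves has
subexponential growth. -/
theorem kyFinal' : H446.K.KYFinal := H446.K.kyFinal kacyAll'

end Vale.Agent.P284.H10.CY
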