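import Vale.Agent.P284.H10.CY.KA
import Vale.Agent.P284.H731.Decay
import Vale.Agent.P284.H731.FBS
import Vale.Agent.P284.H446.CYF
import Vale.Agent.P284.H977.K.K4
import Vale.Agent.P284.H119.K5S
import Vale.Agent.P284.H66.V4

/-!
# P284, theorem CY (helper10): `KACYAll` from the existence theorem `CYEx`
-/

noncomputable section

namespace Vale.Agent.P284.H10.CY

open Vale.Agent.P284.H730.CY

/-- the estimates for the solutions on the covering, for all groups, from the existence theorem -/
theorem kacyAll (h : CYEx) : H446.K.KACYAll := by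
  intro n Γ _ C P K a₀ z₀ ρ hρ hball
  refine kacy C P K (fun F hF A hA => ?_) H977.K.k4Stmt H119.K.k5Stmt H66.v4Stmt a₀ z₀ ρ hρ hball
  obtain ⟨φ, h1, h2⟩ := h n Γ C K F (H731.CY.fbStmt n Γ C F hF)
  exact ⟨φ, h1, H731.CY.m0Concl.sign n Γ C K F φ h1 h2 A hA,
    H731.CY.decay0 P hF.fin hA h1 h2 (by norm_num)⟩

end Vale.Agent.P284.H10.CY
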