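import Vale.Agent.P284.H10.CY.Pt
import Vale.Agent.P284.H913.K3

/-!
# P284, theorem CY (helper10): invariance of the mass under finitely supported perturbations
-/

open scoped Manifold ContDiff Topology Pointwise ComplexConjugate ComplexOrder
open Filter Set Metric MeasureTheory

noncomputable section

namespace Vale.Agent.P284.H10.CY

open Vale.Agent.P272.K Vale.Agent.P284.H248 Vale.Agent.P284.H894 Vale.Agent.P284.H894.G
  Vale.Agent.P284.H894.V Vale.Agent.P284.H894.W Vale.Agent.P284.H913.V Vale.Agent.P284.H409.A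
  Vale.Agent.P284.H409.K Vale.Agent.P284.H913.K

variable {n : ℕ} {Γ : Type} [Group Γ] {C : Coc n Γ} {u φ θ : Γ → C.I → Cm n → ℝ}

theorem smF_add (hu : IsTst C u) (hθ : SmF C θ) : SmF C (fun γ a z => u γ a z + θ γ a z) where
  smooth γ a z hz := (hu.smooth γ a z hz).add (hθ.smooth γ a z hz)
  compat γ a b z hz := by rw [hu.compat γ a b z hz, hθ.compat γ a b z hz]

/-- the difference of the densities -/
def DD' (K : KM C) (u θ : Γ → C.I → Cm n → ℝ) (γ : Γ) (a : C.I) (z : Cm n) : ℝ :=
  Dn K (fun γ a z => u γ a z + θ γ a z) γ a z - Dn K θ γ a z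

theorem fam_DD (K : KM C) (hu : IsTst C u) (hθ : SmF C θ) : Fam C (DD' K u θ) where
  cont γ a z hz := by
    have hs := smF_add hu hθ
    exact ((Dn_smooth K hs.smooth γ hz).continuousAt.sub
      (Dn_smooth K hθ.smooth γ hz).continuousAt).continuousWithinAt
  compat γ a b z hz := by
    have hs := smF_add hu hθ
    simp only [DD']
    rw [Dn_compat K hs.smooth hs.compat γ a b z hz, Dn_compat K hθ.smooth hθ.compat γ a b z hz]
  fin := Vale.Agent.P284.H639.V.fin_of hu fun γ a z hz e => by
    simp only [DD']
    have e1 : Dn K (fun γ a z => u γ a z + θ γ a z) γ a z = Dn K θ γ a z := by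
      refine Dn_congr K ?_
      filter_upwards [e] with y hy
      rw [hy, zero_add]
    rw [e1, sub_self]

theorem step' (P : PU C) (K : KM C) (hθ : SmF C θ) (hφ : IsTst C φ) (b : C.I) :
    V.Int P K (DD' K (Vale.Agent.P284.H639.V.cut P b φ) θ) = 0 := by
  have hc := Vale.Agent.P284.H639.V.isTst_cut P b hφ
  rw [v3Stmt.piece C P K _ b (P.K b) (fam_DD K hc hθ) (P.compactK b) (P.K_sub b) ?_]
  · have key : ∀ γ, ∫ z in C.V b, DD' K (Vale.Agent.P284.H639.V.cut P b φ) θ γ b z *
        vol (K.w b) z = 0 := by
      intro γ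
      have hT := Vale.Agent.P284.H639.V.TU_cut P b hφ γ
      have hst := Vale.Agent.P272.K.INT.local_stokes
        (b := fun z => K.w b z + cHess (θ γ b) z) (U := C.V b)
        (u := Vale.Agent.P284.H639.V.cut P b φ γ b) isOpen_ball
        (fun z hz i j => ((K.ku b).smooth z (V_sub C b hz) i j).add
          (Vale.Agent.P284.H639.V.mc_cHess (hθ.smooth γ b z (V_sub C b hz)) i j))
        (fun z hz i k l => by
          have hz' := V_sub C b hz
          have f1 := ((K.ku b).smooth z hz' k l).differentiableAt (by simp)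
          have f2 := ((K.ku b).smooth z hz' i l).differentiableAt (by simp)
          have g1 := (Vale.Agent.P272.K.INT.smooth_cHess
            (hθ.smooth γ b z hz') k l).differentiableAt (by simp)
          have g2 := (Vale.Agent.P272.K.INT.smooth_cHess
            (hθ.smooth γ b z hz') i l).differentiableAt (by simp)
          change dz i (fun y => K.w b y k l + cHess (θ γ b) y k l) z =
            dz k (fun y => K.w b y i l + cHess (θ γ b) y i l) z
          rw [Vale.Agent.P272.K.INT.dz_add f1 g1, Vale.Agent.P272.K.INT.dz_add f2 g2,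
            (K.ku b).closed z hz' k l i,
            Vale.Agent.P272.K.INT.cHess_closed (hθ.smooth γ b z hz') i k l])
        hT.smooth hT.compact hT.supp
      rw [← hst]
      refine setIntegral_congr_fun measurableSet_ball fun z hz => ?_
      have hz' := V_sub C b hz
      have hv := (vol_pos K hz').ne'
      have e1 : cHess (fun z => Vale.Agent.P284.H639.V.cut P b φ γ b z + θ γ b z) z =
          cHess (Vale.Agent.P284.H639.V.cut P b φ γ b) z + cHess (θ γ b) z :=
        C2.cHess_add ((hc.smooth γ b z hz').of_le Vale.Agent.P284.H639.V.two_le)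
          ((hθ.smooth γ b z hz').of_le Vale.Agent.P284.H639.V.two_le)
      have e2 : K.w b z + (cHess (Vale.Agent.P284.H639.V.cut P b φ γ b) z + cHess (θ γ b) z) =
          K.w b z + cHess (θ γ b) z + cHess (Vale.Agent.P284.H639.V.cut P b φ γ b) z := by
        abel
      show ((K.w b z + cHess (fun z => Vale.Agent.P284.H639.V.cut P b φ γ b z +
        θ γ b z) z).det.re / vol (K.w b) z - (K.w b z + cHess (θ γ b) z).det.re /
        vol (K.w b) z) * vol (K.w b) z = _
      rw [e1, e2]
      field_simp
    simp only [key, tsum_zero]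
  · intro γ a z hz hne
    by_contra hn
    apply hne
    have e := Vale.Agent.P284.H639.V.cut_ev P b φ γ hz hn
    have e1 : Dn K (fun γ a z => Vale.Agent.P284.H639.V.cut P b φ γ a z + θ γ a z) γ a z =
        Dn K θ γ a z := by
      refine Dn_congr K ?_
      filter_upwards [e] with y hy
      rw [hy, zero_add]
    simp only [DD']
    rw [e1, sub_self]

theorem isTst_add' (hφ : IsTst C φ) (hθ : IsTst C θ) :
    IsTst C (fun γ a z => φ γ a z + θ γ a z) where
  smooth γ a z hz := (hφ.smooth γ a z hz).add (hθ.smooth γ a z hz)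
  compat γ a b z hz := by rw [hφ.compat γ a b z hz, hθ.compat γ a b z hz]
  fin := by
    refine (hφ.fin.union hθ.fin).subset ?_
    rintro γ ⟨a, z, hz, hne⟩
    by_contra hγ
    simp only [mem_union, mem_ofPred_eq, not_or, not_exists, not_and, not_not] at hγ
    exact hne (by rw [hγ.1 a z hz, hγ.2 a z hz]; simp)
  out γ a z hz := by rw [hφ.out γ a z hz, hθ.out γ a z hz, add_zero]

theorem isTst_zero' : IsTst C (fun _ _ _ => (0 : ℝ)) where
  smooth _ _ _ _ := contDiffAt_const
  compat _ _ _ _ _ := rfl
  fin := by simp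
  out _ _ _ _ := rfl

/-- **Invariance of the mass.** -/
theorem mass_zero (P : PU C) (K : KM C) (hθ : SmF C θ) (hφ : IsTst C φ) :
    V.Int P K (DD' K φ θ) = 0 := by
  classical
  have key : ∀ s : Finset C.I,
      IsTst C (fun γ a z => ∑ b ∈ s, Vale.Agent.P284.H639.V.cut P b φ γ a z) ∧
      V.Int P K (DD' K (fun γ a z => ∑ b ∈ s, Vale.Agent.P284.H639.V.cut P b φ γ a z) θ) = 0 := by
    intro s
    induction s using Finset.induction_on with
    | empty =>
      refine ⟨by simpa only [Finset.sum_empty] using isTst_zero', ?_⟩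
      rw [← Vale.Agent.P284.H639.V.Int_zero P K]
      refine Vale.Agent.P284.H639.V.Int_congr P K fun γ a z hz => ?_
      simp only [DD', Finset.sum_empty, zero_add, sub_self]
    | insert b s hb ih =>
      have hc := Vale.Agent.P284.H639.V.isTst_cut P b hφ
      have hs := smF_add ih.1 hθ
      simp only [Finset.sum_insert hb]
      refine ⟨isTst_add' hc ih.1, ?_⟩
      have h1 := step' P K hs hφ b
      have F1 := fam_DD K hc hs
      have F2 := fam_DD K ih.1 hθ
      have h2 := v3Stmt.lin C P K _ _ 1 1 F1 F2
      rw [h1, ih.2] at h2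
      simp only [mul_zero, add_zero] at h2
      rw [← h2]
      refine Vale.Agent.P284.H639.V.Int_congr P K fun γ a z hz => ?_
      simp only [DD', one_mul]
      have e : (fun (γ : Γ) (a : C.I) (z : Cm n) => Vale.Agent.P284.H639.V.cut P b φ γ a z +
          ∑ b ∈ s, Vale.Agent.P284.H639.V.cut P b φ γ a z + θ γ a z) =
          fun γ a z => Vale.Agent.P284.H639.V.cut P b φ γ a z +
            (∑ b ∈ s, Vale.Agent.P284.H639.V.cut P b φ γ a z + θ γ a z) := by
        funext γ a z
        ring
      rw [e]
      ring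
  rw [← (key Finset.univ).2]
  refine Vale.Agent.P284.H639.V.Int_congr P K fun γ a z hz => ?_
  simp only [DD']
  congr 1
  refine Dn_congr K ?_
  filter_upwards [Vale.Agent.P284.H639.V.cut_sum P φ γ (V_sub C a hz)] with y hy
  rw [hy]

end Vale.Agent.P284.H10.CY
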