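import Vale.Agent.P284.H977.K.K4
import Vale.Agent.P272.K.QN.H327.Frame

/-!
# P284, theorem CY (helper10): pointwise inequality for the smooth maximum of `φ` and `-1/2`
-/

open scoped Manifold ContDiff Topology Pointwise ComplexConjugate ComplexOrder Matrix
open Filter Set Metric MeasureTheory

noncomputable section

namespace Vale.Agent.P284.H10.CY

open Vale.Agent.P272.K Vale.Agent.P284.H894.V Vale.Agent.P284.H409.K Vale.Agent.P284.H977.K

variable {n : ℕ}

/-- concavity of `log det` -/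
theorem det_geo {g M : Matrix (Fin n) (Fin n) ℂ} (hg : g.PosDef) (hM : M.PosDef) {t : ℝ}
    (h0 : 0 ≤ t) (h1 : t ≤ 1) :
    (M.det.re / g.det.re) ^ t ≤ (((1 - t : ℝ) : ℂ) • g + (t : ℂ) • M).det.re / g.det.re := by
  obtain ⟨T, U, η, hη, hUT, hTU, hgT, hMT⟩ := Vale.Agent.P272.K.QN.H327.exists_frame hg hM.posSemidef
  set d : ℂ := T.det * (Tᴴ).det with hd
  have hdr : d = ((‖T.det‖ ^ 2 : ℝ) : ℂ) := by
    rw [hd, Matrix.det_conjTranspose, RCLike.star_def, Complex.mul_conj, Complex.normSq_eq_norm_sq]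
  have e1 : g.det = d := by rw [hgT, Matrix.det_mul]
  have e2 : ∀ f : Fin n → ℝ, (T * Matrix.diagonal (fun k => ((f k : ℝ) : ℂ)) * Tᴴ).det =
      d * ((∏ k, f k : ℝ) : ℂ) := by
    intro f
    rw [Matrix.det_mul, Matrix.det_mul, Matrix.det_diagonal, hd]
    push_cast
    ring
  have e3 : ((1 - t : ℝ) : ℂ) • g + (t : ℂ) • M =
      T * Matrix.diagonal (fun k => (((1 - t) + t * η k : ℝ) : ℂ)) * Tᴴ := by
    have h2 : Matrix.diagonal (fun k => (((1 - t) + t * η k : ℝ) : ℂ)) =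
        ((1 - t : ℝ) : ℂ) • (1 : Matrix (Fin n) (Fin n) ℂ) +
          (t : ℂ) • Matrix.diagonal (fun k => ((η k : ℝ) : ℂ)) := by
      rw [← Matrix.diagonal_one, ← Matrix.diagonal_smul, ← Matrix.diagonal_smul,
        Matrix.diagonal_add]
      congr 1
      funext k
      simp
    rw [h2, Matrix.mul_add, Matrix.add_mul, Matrix.mul_smul, Matrix.smul_mul, Matrix.mul_smul,
      Matrix.smul_mul, Matrix.mul_one, ← hgT, ← hMT]
  have hdp : 0 < ‖T.det‖ ^ 2 := by
    have h3 := hg.det_pos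
    rw [e1, hdr] at h3
    exact Complex.zero_lt_real.1 h3
  have f1 : g.det.re = ‖T.det‖ ^ 2 := by rw [e1, hdr, Complex.ofReal_re]
  have f2 : M.det.re = ‖T.det‖ ^ 2 * ∏ k, η k := by
    conv_lhs => rw [hMT, e2 η, hdr, ← Complex.ofReal_mul, Complex.ofReal_re]
  have f3 : (((1 - t : ℝ) : ℂ) • g + (t : ℂ) • M).det.re =
      ‖T.det‖ ^ 2 * ∏ k, ((1 - t) + t * η k) := by
    rw [e3, e2 fun k => (1 - t) + t * η k, hdr, ← Complex.ofReal_mul, Complex.ofReal_re]
  rw [f1, f2, f3, mul_div_cancel_left₀ _ hdp.ne', mul_div_cancel_left₀ _ hdp.ne',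
    ← Real.finsetProd_rpow _ _ fun k _ => hη k]
  refine Finset.prod_le_prod (fun k _ => Real.rpow_nonneg (hη k) _) fun k _ => ?_
  have := Real.geom_mean_le_arith_mean2_weighted (sub_nonneg.2 h1) h0 zero_le_one (hη k)
    (by ring)
  rw [Real.one_rpow, one_mul, mul_one] at this
  exact this

/-- `t + kk t` is a smooth convex version of `max t (-1/2)` -/
def kk (t : ℝ) : ℝ := (1 / 4) * hh0 (-4 * t - 2)

/-- the slope of `t + kk t` -/
def sl (t : ℝ) : ℝ := 1 - hh1 (-4 * t - 2)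

theorem kk_zero {t : ℝ} (ht : -1 / 2 ≤ t) : kk t = 0 := by
  rw [kk, hh0_zero (by linarith), mul_zero]

theorem kk_smooth : ContDiff ℝ ∞ kk :=
  contDiff_const.mul (hh0_smooth.comp ((contDiff_const.mul contDiff_id).sub contDiff_const))

theorem kk_deriv (t : ℝ) : HasDerivAt kk (sl t - 1) t := by
  have h1 : HasDerivAt (fun t : ℝ => -4 * t - 2) (-4 * 1) t :=
    ((hasDerivAt_id t).const_mul (-4)).sub_const 2
  have h2 := ((hh0_deriv (-4 * t - 2)).comp t h1).const_mul (1 / 4)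
  refine h2.congr_deriv ?_
  rw [sl]
  ring

theorem sl_deriv (t : ℝ) : HasDerivAt (fun t => sl t - 1) (4 * hh2 (-4 * t - 2)) t := by
  have h1 : HasDerivAt (fun t : ℝ => -4 * t - 2) (-4 * 1) t :=
    ((hasDerivAt_id t).const_mul (-4)).sub_const 2
  have h2 := (((hh1_deriv (-4 * t - 2)).comp t h1).const_sub 1).sub_const 1
  refine h2.congr_deriv ?_
  ring

theorem sl_nonneg (t : ℝ) : 0 ≤ sl t := by
  rw [sl]; linarith [hh1_le (-4 * t - 2)]

theorem sl_le (t : ℝ) : sl t ≤ 1 := by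
  rw [sl]; linarith [hh1_nonneg (-4 * t - 2)]

/-- the slope is small far below -/
theorem sl_small {t : ℝ} (ht : t ≤ -1) : -1 / 4 ≤ sl t * t := by
  set x : ℝ := -4 * t - 2 with hx
  have hx2 : 2 ≤ x := by rw [hx]; linarith
  have hx0 : 0 < x := by linarith
  have h1 : sl t ≤ (x⁻¹) ^ 2 := by
    rw [sl, ← hx, hh1, glue_pos hx0]
    have h2 := Real.add_one_le_exp (-x⁻¹)
    have h3 : 0 ≤ 1 + x⁻¹ := by positivity
    nlinarith [mul_le_mul_of_nonneg_left h2 h3]
  have h4 : t = -(x + 2) / 4 := by rw [hx]; ring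
  have h5 : sl t * ((x + 2) / 4) ≤ (x⁻¹) ^ 2 * ((x + 2) / 4) :=
    mul_le_mul_of_nonneg_right h1 (by linarith)
  have h6 : (x⁻¹) ^ 2 * ((x + 2) / 4) ≤ 1 / 4 := by
    rw [inv_pow, inv_mul_le_iff₀ (by positivity)]
    nlinarith
  have h7 : sl t * t = -(sl t * ((x + 2) / 4)) := by
    rw [h4]
    ring
  rw [h7]
  linarith

/-- pointwise inequality -/
theorem pt {φ : Cm n → ℝ} {z : Cm n} (hφ : ContDiffAt ℝ 2 φ z) {W : Matrix (Fin n) (Fin n) ℂ}
    (hW : W.PosDef) (hWφ : (W + cHess φ z).PosDef) :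
    ((W + cHess φ z).det.re / W.det.re) ^ (sl (φ z)) ≤
      (W + cHess (fun y => kk (φ y) + φ y) z).det.re / W.det.re := by
  have hk : ContDiffAt ℝ 2 (fun y => kk (φ y)) z :=
    (kk_smooth.contDiffAt.of_le (by norm_cast)).comp z hφ
  have e : W + cHess (fun y => kk (φ y) + φ y) z =
      (((1 - sl (φ z) : ℝ) : ℂ) • W + ((sl (φ z) : ℝ) : ℂ) • (W + cHess φ z)) +
        ((4 * hh2 (-4 * φ z - 2) : ℝ) : ℂ) •
          Matrix.vecMulVec (DD φ z) (star (DD φ z)) := by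
    rw [C2.cHess_add hk hφ]
    ext j k
    have h1 := C2.cHess_comp (ψ := kk) (ψ₁ := fun t => sl t - 1) (ψ₂ := 4 * hh2 (-4 * φ z - 2))
      (Eventually.of_forall kk_deriv) (sl_deriv _) hφ j k
    simp only [Matrix.add_apply, Matrix.smul_apply, smul_eq_mul, Matrix.vecMulVec_apply,
      Pi.star_apply]
    rw [h1, C2.dzb_real k (hφ.differentiableAt (by norm_num))]
    simp only [DD, RCLike.star_def]
    push_cast
    ring
  have hWd : 0 < W.det.re := (Complex.lt_def.1 hW.det_pos).1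
  refine (det_geo hW hWφ (sl_nonneg _) (sl_le _)).trans ?_
  rw [e]
  refine div_le_div_of_nonneg_right ?_ hWd.le
  have hpd : (((1 - sl (φ z) : ℝ) : ℂ) • W + ((sl (φ z) : ℝ) : ℂ) • (W + cHess φ z)).PosDef := by
    rcases eq_or_lt_of_le (sl_nonneg (φ z)) with h | h
    · rw [← h]
      simpa using hW
    · exact Matrix.PosDef.posSemidef_add (smul_psd (by linarith [sl_le (φ z)]) hW.posSemidef)
        (smul_pd h hWφ)
  refine det_re_le hpd ?_
  rw [add_sub_cancel_left]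
  exact smul_psd (mul_nonneg (by norm_num) (hh2_nonneg _))
    (Matrix.posSemidef_vecMulVec_self_star _)

end Vale.Agent.P284.H10.CY
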